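import Vale.Agent.Lib.P209.helper49.Main
import Vale.Agent.Lib.P209.ShellCase

namespace Vale.Agent.Results.P209.BigAndSmallPacking

open Vale.Agent.Lib.P209

/-- Big and small balls: in complex dimension `n ≥ 1`, for every `ε > 0` there is `δ > 0` such
that, for any number `k` of closed balls of capacities `r i > 0` and any set `B` of at most
`2 ^ n` indices, if the balls of `B` have capacities below `R` with pairwise sums below `R`, all
other balls have `r i ≤ δ R`, and `∑ r i ^ n ≤ (1 - ε) R ^ n`, then the closed balls admit a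
symplectic embedding of their disjoint union into the open ball of capacity `R`. -/
theorem result (n : ℕ) (hn : 1 ≤ n) (ε : ℝ) (hε : 0 < ε) :
    ∃ δ : ℝ, 0 < δ ∧ ∀ (k : ℕ) (r : Fin k → ℝ) (R : ℝ) (B : Finset (Fin k)), 0 < R →
      (∀ i, 0 < r i) → B.card ≤ 2 ^ n → (∀ i ∈ B, r i < R) →
      (∀ i ∈ B, ∀ j ∈ B, i ≠ j → r i + r j < R) → (∀ i, i ∉ B → r i ≤ δ * R) →
      ∑ i, r i ^ n ≤ (1 - ε) * R ^ n → BallPacking n k r R := by
  obtain ⟨m, rfl⟩ : ∃ m, n = m + 1 := ⟨n - 1, by omega⟩
  have H1 : BigSmallHyp (m + 1) 1 := fun ε' hε' => by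
    obtain ⟨δ, hδ, h⟩ := H49.big_and_small m ε' hε'
    exact ⟨δ, hδ, fun k r R B hR hr hB => h k r R B hR hr (hB.trans (by omega))⟩
  exact H80.unified_packing m H1 ε hε

end Vale.Agent.Results.P209.BigAndSmallPacking
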