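import Vale.Agent.Lib.P209.NestPack

namespace Vale.Agent.Results.P209.DyadicPacking

open Vale.Agent.Lib.P209

/-- Dyadic packings, any number of balls: in complex dimension `n ≥ 1`, if the capacities
`r i > 0` satisfy `r i < R / 2 ^ lev i` for natural numbers `lev i` with
`∑ 1 / 2 ^ (n * lev i) ≤ 1` (Kraft inequality), then the closed balls of capacities `r i`
admit a symplectic embedding of their disjoint union into the open ball of capacity `R`. -/
theorem result (n : ℕ) (hn : 1 ≤ n) (k : ℕ) (lev : Fin k → ℕ) (r : Fin k → ℝ) (R : ℝ)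
    (hr : ∀ i, 0 < r i) (hrR : ∀ i, r i < R / 2 ^ lev i)
    (hK : ∑ i, (1 : ℝ) / 2 ^ (n * lev i) ≤ 1) : BallPacking n k r R := by
  obtain ⟨m, rfl⟩ : ∃ m, n = m + 1 := ⟨n - 1, by omega⟩
  exact dyadic_packing m k lev r R hrR hK

end Vale.Agent.Results.P209.DyadicPacking
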