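import Vale.Agent.Results.P209.PowTwoPacking
import Vale.Agent.Results.P209.DyadicPacking
import Vale.Agent.Results.P209.BigAndSmallPacking

namespace Vale.Agent.Results.P209.CollectedPackings

open Vale.Agent.Lib.P209

/-- A collection: the conjunction of the three statements `PowTwoPacking.result`,
`DyadicPacking.result` and `BigAndSmallPacking.result` of this folder, each with its
hypotheses unchanged. Nothing new is proved here.

1. At most `2 ^ n` balls: `r i < R` and `r i + r j < R` for `i ≠ j` give a packing.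
2. Dyadic packings: `r i < R / 2 ^ lev i` with `∑ 1 / 2 ^ (n * lev i) ≤ 1` give a packing.
3. Big and small balls: for every `ε > 0` there is `δ > 0` such that a set `B` of at most
`2 ^ n` balls with capacities below `R` and pairwise sums below `R`, together with balls of
capacity at most `δ R`, of total `∑ r i ^ n ≤ (1 - ε) R ^ n`, give a packing. -/
theorem result :
    (∀ (n : ℕ), 1 ≤ n → ∀ (k : ℕ), k ≤ 2 ^ n → ∀ (r : Fin k → ℝ) (R : ℝ),
      (∀ i, 0 < r i) → (∀ i, r i < R) → (∀ i j, i ≠ j → r i + r j < R) →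
      BallPacking n k r R) ∧
    (∀ (n : ℕ), 1 ≤ n → ∀ (k : ℕ) (lev : Fin k → ℕ) (r : Fin k → ℝ) (R : ℝ),
      (∀ i, 0 < r i) → (∀ i, r i < R / 2 ^ lev i) →
      ∑ i, (1 : ℝ) / 2 ^ (n * lev i) ≤ 1 → BallPacking n k r R) ∧
    (∀ (n : ℕ), 1 ≤ n → ∀ (ε : ℝ), 0 < ε →
      ∃ δ : ℝ, 0 < δ ∧ ∀ (k : ℕ) (r : Fin k → ℝ) (R : ℝ) (B : Finset (Fin k)), 0 < R →
        (∀ i, 0 < r i) → B.card ≤ 2 ^ n → (∀ i ∈ B, r i < R) →
        (∀ i ∈ B, ∀ j ∈ B, i ≠ j → r i + r j < R) → (∀ i, i ∉ B → r i ≤ δ * R) →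
        ∑ i, r i ^ n ≤ (1 - ε) * R ^ n → BallPacking n k r R) :=
  ⟨PowTwoPacking.result, DyadicPacking.result, BigAndSmallPacking.result⟩

end Vale.Agent.Results.P209.CollectedPackings
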