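import Vale.Agent.Lib.P209.HalvingPack

namespace Vale.Agent.Results.P209.PowTwoPacking

open Vale.Agent.Lib.P209

/-- In every complex dimension `n ≥ 1` and for every number `k ≤ 2 ^ n` of balls: if the
capacities `r i > 0` satisfy `r i < R` for every `i` and `r i + r j < R` for every pair
`i ≠ j`, then the closed balls of capacities `r i` admit a symplectic embedding of their
disjoint union into the open ball of capacity `R`. -/
theorem result (n : ℕ) (hn : 1 ≤ n) (k : ℕ) (hk : k ≤ 2 ^ n) (r : Fin k → ℝ) (R : ℝ)
    (hr : ∀ i, 0 < r i) (hrR : ∀ i, r i < R) (hpair : ∀ i j, i ≠ j → r i + r j < R) :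
    BallPacking n k r R := by
  obtain ⟨m, rfl⟩ : ∃ m, n = m + 1 := ⟨n - 1, by omega⟩
  exact pow_two_packing m k hk r R hrR hpair

end Vale.Agent.Results.P209.PowTwoPacking
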